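import Vale.Agent.P251EJ.DefsS
import Vale.Agent.P251.I.CofTriangle

/-!
# P251EJ, block S, row PLUS: the suspension spectrum of a sphere with a disjoint base point
-/

open CategoryTheory MonoidalCategory Limits Pretriangulated Set Topology OnePoint Metric

universe v u

noncomputable section

namespace Vale.Agent.P251EJ52

open Vale.Agent.P251 Vale.Agent.P251.T Vale.Agent.P251.G Vale.Agent.P251.G.LC
  Vale.Agent.P251.G.Cell Vale.Agent.P251.I Vale.Agent.P251EJ

/-- the point at infinity of the sphere -/
def ptI (k : ℕ) : LC.of Unit ⟶ LC.of (Sp k) :=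
  ofCompact (X := LC.of Unit) (Y := LC.of (Sp k)) (fun _ => ∞) continuous_const

theorem app_ptI (k : ℕ) (x : Unit) :
    app (ptI k) (x : OnePoint Unit) = ((∞ : Sp k) : OnePoint (Sp k)) := rfl

theorem mem_range_ptI (k : ℕ) (x : Sp k) :
    (x : OnePoint (Sp k)) ∈ range (app (ptI k)) ↔ x = ∞ := by
  constructor
  · rintro ⟨y, hy⟩
    induction y using OnePoint.rec with
    | infty => exact absurd ((app_infty (ptI k)).symm.trans hy).symm (OnePoint.coe_ne_infty _)
    | coe y => exact (OnePoint.coe_injective ((app_ptI k y).symm.trans hy)).symm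
  · rintro rfl
    exact ⟨(() : Unit), rfl⟩

theorem ptI_inj (k : ℕ) : Function.Injective (app (ptI k)) := by
  intro x y h
  induction x using OnePoint.rec with
  | infty =>
    induction y using OnePoint.rec with
    | infty => rfl
    | coe y =>
      exact absurd ((app_infty (ptI k)).symm.trans (h.trans (app_ptI k y))).symm
        (OnePoint.coe_ne_infty _)
  | coe x =>
    induction y using OnePoint.rec with
    | infty =>
      exact absurd ((app_ptI k x).symm.trans (h.trans (app_infty (ptI k))))
        (OnePoint.coe_ne_infty _)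
    | coe y => rfl

/-- the characteristic map of the top cell -/
def chr (k : ℕ) (y : Euc k) : Sp k :=
  collapseFun (X := LC.of (Euc k)) (Y := LC.of (Fin k → ℝ)) (jE k) (y : OnePoint (Euc k))

theorem continuous_chr (k : ℕ) : Continuous (chr k) :=
  (continuous_collapseFun (X := LC.of (Euc k)) (Y := LC.of (Fin k → ℝ))
    (isOpenEmbedding_jE k)).comp OnePoint.continuous_coe

theorem chr_jE (k : ℕ) (v : Fin k → ℝ) : chr k (jE k v) = (v : Sp k) :=
  collapseFun_coe_of_injective (X := LC.of (Euc k)) (Y := LC.of (Fin k → ℝ))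
    (isOpenEmbedding_jE k).injective v

theorem chr_of_notMem (k : ℕ) {y : Euc k} (hy : y ∉ ball (0 : Euc k) 1) : chr k y = ∞ :=
  collapseFun_of_notMem (X := LC.of (Euc k)) (Y := LC.of (Fin k → ℝ)) (by rwa [range_jE])

theorem cellStep_ptI (k : ℕ) : CellStep k (range (app (ptI k))) univ := by
  refine ⟨subset_univ _, fun y => ((chr k y : Sp k) : OnePoint (Sp k)), ?_, ?_, ?_, ?_⟩
  · exact (OnePoint.continuous_coe.comp (continuous_chr k)).continuousOn
  · intro y hy
    refine (mem_range_ptI k _).2 (chr_of_notMem k ?_)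
    rw [mem_ball_zero_iff, mem_sphere_zero_iff_norm.1 hy]
    exact lt_irrefl _
  · intro y hy z hz h
    rw [← range_jE] at hy hz
    obtain ⟨a, rfl⟩ := hy
    obtain ⟨b, rfl⟩ := hz
    have h1 : chr k (jE k a) = chr k (jE k b) := OnePoint.coe_injective h
    rw [chr_jE, chr_jE] at h1
    rw [OnePoint.coe_injective h1]
  · apply Subset.antisymm
    · rintro _ ⟨y, hy, rfl⟩
      rw [← range_jE] at hy
      obtain ⟨a, rfl⟩ := hy
      refine ⟨mem_univ _, fun h => ?_⟩
      have h1 := (mem_range_ptI k _).1 h
      rw [chr_jE] at h1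
      exact OnePoint.coe_ne_infty _ h1
    · rintro x ⟨-, hx⟩
      induction x using OnePoint.rec with
      | infty => exact absurd ⟨∞, app_infty _⟩ hx
      | coe x =>
        induction x using OnePoint.rec with
        | infty => exact absurd ((mem_range_ptI k _).2 rfl) hx
        | coe a =>
          refine ⟨jE k a, by rw [← range_jE]; exact mem_range_self a, ?_⟩
          exact congrArg (fun t : Sp k => (t : OnePoint (Sp k))) (chr_jE k a)

theorem cofib_ptI (k : ℕ) : Cofib (ptI k) := cofib_of_cellStep (ptI_inj k) (cellStep_ptI k)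

/-- the collapse to the sphere -/
def col (k : ℕ) : LC.of (Sp k) ⟶ Sph k :=
  mk' (X := LC.of (Sp k)) (Y := Sph k) id continuous_id
    (by rw [Filter.cocompact_eq_bot]; exact Filter.tendsto_bot)

theorem ptI_col (k : ℕ) : ptI k ≫ col k = 0 := by
  apply hom_ext
  intro x
  rfl

theorem isIso_desc (k : ℕ) : IsIso (cofDesc (ptI k) (col k) (ptI_col k)) := by
  have key : ∀ u : cof (ptI k),
      app (cofDesc (ptI k) (col k) (ptI_col k)) (u : OnePoint (cof (ptI k))) = u.1 :=
    fun u => app_cofDesc_coe _ _ _ u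
  have hne : ∀ u : cof (ptI k), (u.1 : Sp k) ≠ ∞ := fun u h => u.2 ((mem_range_ptI k _).2 h)
  apply isIso_of_bijective
  constructor
  · intro x y h
    induction x using OnePoint.rec with
    | infty =>
      induction y using OnePoint.rec with
      | infty => rfl
      | coe y => exact absurd ((key y).symm.trans (h.symm.trans (app_infty _))) (hne y)
    | coe x =>
      induction y using OnePoint.rec with
      | infty => exact absurd ((key x).symm.trans (h.trans (app_infty _))) (hne x)
      | coe y => rw [Subtype.ext ((key x).symm.trans (h.trans (key y)))]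
  · intro z
    induction z using OnePoint.rec with
    | infty => exact ⟨∞, app_infty _⟩
    | coe a =>
      let u : cof (ptI k) :=
        ⟨((a : Fin k → ℝ) : Sp k), fun h => OnePoint.coe_ne_infty _ ((mem_range_ptI k _).1 h)⟩
      exact ⟨(u : OnePoint (cof (ptI k))), key u⟩

theorem fc_sp (k : ℕ) : FC (LC.of (Sp k)) :=
  haveI := isIso_desc k
  FC.of_ext (cofib_ptI k) (FC.of_unique (LC.of Unit))
    (asIso (cofDesc (ptI k) (col k) (ptI_col k))) (FC.sph k)

variable {T : Type u} [Category.{v} T] [Preadditive T] [HasZeroObject T]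
    [HasShift T ℤ] [∀ n : ℤ, (shiftFunctor T n).Additive] [Pretriangulated T]
    [MonoidalCategory T] [SymmetricCategory T] [TensorTriangulated T] (F : SpaceFunctor T)

/-- row PLUS -/
theorem plusS : PlusS F := by
  intro k
  have h1 : FC (LC.of Unit) := FC.of_unique (LC.of Unit)
  refine ⟨h1, fc_sp k, fun V a w h => ?_⟩
  let i : FCat.mk h1 ⟶ FCat.mk (fc_sp k) := FCat.hom (ptI k)
  have hi : Cofib i.hom := cofib_ptI k
  let c : cofF i hi ⟶ SphF k := FCat.hom (cofDesc (ptI k) (col k) (ptI_col k))
  have hc : IsIso (F.S.map c) := by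
    apply F.isIso_map
    have := isIso_desc k
    exact isHEquiv_of_iso (cofDesc (ptI k) (col k) (ptI_col k))
  have ht : toSph (fc_sp k) (ContinuousMap.id _) = cofMapF i hi ≫ c := by
    ext1
    exact (cofMap_cofDesc (ptI k) (col k) (ptI_col k)).symm
  have hp : F.S.map i ≫ Sm F (fc_sp k) h1 (ContinuousMap.const _ ()) = 𝟙 _ := by
    rw [Sm, ← Functor.map_comp, ← CategoryTheory.Functor.map_id]
    congr 1
    ext1
    apply hom_ext
    intro x
    rfl
  have hT := F.cof_distinguished i hi
  have h12 : F.S.map i ≫ F.S.map (cofMapF i hi) = 0 := comp_distTriang_mor_zero₁₂ _ hT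
  have h31 : F.cofδ i hi ≫ (F.S.map i)⟦(1 : ℤ)⟧' = 0 := comp_distTriang_mor_zero₃₁ _ hT
  have hδ : F.cofδ i hi = 0 := by
    have h2 := congrArg
      (fun t => t ≫ (Sm F (fc_sp k) h1 (ContinuousMap.const _ ()))⟦(1 : ℤ)⟧') h31
    simp only [Category.assoc, zero_comp] at h2
    rw [← Functor.map_comp, hp, CategoryTheory.Functor.map_id, Category.comp_id] at h2
    exact h2
  rw [ht, Functor.map_comp, Category.assoc] at h
  have hw : w = 0 := by
    have h2 := congrArg (fun t => F.S.map i ≫ t) h
    simp only [← Category.assoc, h12, hp, zero_comp, Category.id_comp] at h2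
    exact h2.symm
  rw [hw, comp_zero] at h
  obtain ⟨b, hb⟩ : ∃ b : (F.S.obj (FCat.mk h1))⟦(1 : ℤ)⟧ ⟶ V,
      F.S.map c ≫ a = F.cofδ i hi ≫ b := Triangle.yoneda_exact₃ _ hT _ h
  rw [hδ, zero_comp] at hb
  exact (cancel_epi (F.S.map c)).1 (hb.trans comp_zero.symm)

end Vale.Agent.P251EJ52
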